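import Mathlib
import Vale.Agent.Lib.P162.Defs
import Vale.Agent.Lib.P162.RDefs
import Vale.Agent.Lib.P162.CVDefs
import Vale.Agent.Lib.P162.helper5.LumpPair
import Vale.Agent.Lib.P162.helper93.Gap
import Vale.Agent.Lib.P162.helper93.PairPartnerFinal
import Vale.Agent.Lib.P162.helper63.RMain
import Vale.Agent.Lib.P162.helper6.LawEqPow

/-!
Thorp shuffle: the probability that walkers `0` and `1` of the chain of j + 2 cards are partners
(`y 1 = y 0 + h`) at time `s` (pool piece CV9): it vanishes right after a partner time, is at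
most `2^(-m)` later, and is close to `1 / (2 h - 1)` after `6 L` steps.
-/

namespace Vale.Agent.Lib.P162.H33CV

open Finset BigOperators

/-- A pair equals a given function on `Fin 2` iff the two coordinates agree. -/
theorem pair_eq_iff' {α : Type*} (a b : α) (w : Fin 2 → α) : ![a, b] = w ↔ a = w 0 ∧ b = w 1 := by
  constructor
  · intro h
    rw [← h]
    exact ⟨rfl, rfl⟩
  · rintro ⟨h0, h1⟩
    funext i
    fin_cases i
    · exact h0
    · exact h1

/-- A function on `Fin 2` with two different values is injective. -/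
theorem inj_of_ne {α : Type*} (w : Fin 2 → α) (hw : w 0 ≠ w 1) : Function.Injective w := by
  intro i j hij
  fin_cases i <;> fin_cases j
  · rfl
  · exact absurd hij hw
  · exact absurd hij.symm hw
  · rfl

/-- Lumping onto the first two coordinates, summed over the partner pairs. -/
theorem pp_lump (h j : ℕ) [NeZero h] (u : Fin (j + 2) → ZMod (2 * h)) (s : ℕ) :
    ∑ y ∈ univ.filter (fun y : Fin (j + 2) → ZMod (2 * h) => y 1 = y 0 + (h : ZMod (2 * h))),
        (Kmat h (j + 2) ^ s) u y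
      = ∑ w ∈ univ.filter (fun w : Fin 2 → ZMod (2 * h) => w 1 = w 0 + (h : ZMod (2 * h))),
        (Kmat h 2 ^ s) ![u 0, u 1] w := by
  classical
  have hne : (0 : Fin (j + 2)) ≠ 1 := by
    intro h01
    have h2 := congrArg Fin.val h01
    rw [Fin.val_zero, Fin.val_one] at h2
    exact absurd h2 (by norm_num)
  have hmaps : ∀ y ∈ univ.filter
      (fun y : Fin (j + 2) → ZMod (2 * h) => y 1 = y 0 + (h : ZMod (2 * h))),
      (![y 0, y 1] : Fin 2 → ZMod (2 * h)) ∈ univ.filter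
        (fun w : Fin 2 → ZMod (2 * h) => w 1 = w 0 + (h : ZMod (2 * h))) := by
    intro y hy
    rw [mem_filter] at hy ⊢
    exact ⟨mem_univ _, hy.2⟩
  have hfil : ∀ w ∈ univ.filter
      (fun w : Fin 2 → ZMod (2 * h) => w 1 = w 0 + (h : ZMod (2 * h))),
      (univ.filter (fun y : Fin (j + 2) → ZMod (2 * h) =>
          y 1 = y 0 + (h : ZMod (2 * h)))).filter
        (fun y => (![y 0, y 1] : Fin 2 → ZMod (2 * h)) = w)
      = univ.filter (fun y : Fin (j + 2) → ZMod (2 * h) => y 0 = w 0 ∧ y 1 = w 1) := by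
    intro w hw
    rw [mem_filter] at hw
    ext y
    rw [mem_filter, mem_filter, mem_filter, pair_eq_iff']
    constructor
    · rintro ⟨-, h2⟩
      exact ⟨mem_univ _, h2⟩
    · rintro ⟨-, h0, h1⟩
      refine ⟨⟨mem_univ _, ?_⟩, h0, h1⟩
      rw [h0, h1]
      exact hw.2
  rw [← Finset.sum_fiberwise_of_maps_to hmaps]
  apply Finset.sum_congr rfl
  intro w hw
  rw [hfil w hw]
  exact H5.lump_pair h (j + 2) u 0 1 hne s w

theorem pp_gap (h j : ℕ) [NeZero h] (u : Fin (j + 2) → ZMod (2 * h))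
    (hu : u 1 = u 0 + (h : ZMod (2 * h))) (s : ℕ) (hs1 : 1 ≤ s) (hs : 2 ^ s ≤ h) :
    ∑ y ∈ univ.filter (fun y : Fin (j + 2) → ZMod (2 * h) => y 1 = y 0 + (h : ZMod (2 * h))),
      (Kmat h (j + 2) ^ s) u y = 0 := by
  rw [pp_lump]
  apply Finset.sum_eq_zero
  intro w hw
  exact H93.partner_gap h s hs1 hs ![u 0, u 1] w hu (mem_filter.mp hw).2

theorem pp_upper (h j : ℕ) [NeZero h] (u : Fin (j + 2) → ZMod (2 * h)) (hu : u 0 ≠ u 1)
    (m s : ℕ) (hm : 2 ^ m ≤ h) (hs : m ≤ s) :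
    ∑ y ∈ univ.filter (fun y : Fin (j + 2) → ZMod (2 * h) => y 1 = y 0 + (h : ZMod (2 * h))),
      (Kmat h (j + 2) ^ s) u y ≤ 1 / 2 ^ m := by
  rw [pp_lump]
  exact H93.pair_partner h ![u 0, u 1] hu m s hm hs

/-- The number of partner pairs. -/
theorem pt_card (h : ℕ) [NeZero h] :
    (univ.filter (fun w : Fin 2 → ZMod (2 * h) => w 1 = w 0 + (h : ZMod (2 * h)))).card
      = 2 * h := by
  classical
  have himg : univ.filter (fun w : Fin 2 → ZMod (2 * h) => w 1 = w 0 + (h : ZMod (2 * h)))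
      = univ.image
        (fun a : ZMod (2 * h) => (![a, a + (h : ZMod (2 * h))] : Fin 2 → ZMod (2 * h))) := by
    ext w
    rw [mem_filter, mem_image]
    constructor
    · rintro ⟨-, hw⟩
      exact ⟨w 0, mem_univ _, (pair_eq_iff' _ _ _).mpr ⟨rfl, hw.symm⟩⟩
    · rintro ⟨a, -, rfl⟩
      exact ⟨mem_univ _, rfl⟩
  rw [himg, Finset.card_image_of_injective, Finset.card_univ, ZMod.card]
  intro a b hab
  exact congrFun hab 0

/-- The uniform law gives the partner pairs total mass `1 / (2 h - 1)`. -/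
theorem pt_unif (h : ℕ) [NeZero h] :
    ∑ w ∈ univ.filter (fun w : Fin 2 → ZMod (2 * h) => w 1 = w 0 + (h : ZMod (2 * h))),
        unifInj h 2 w
      = 1 / ((2 * h : ℝ) - 1) := by
  classical
  have hh1 : 1 ≤ h := Nat.pos_of_ne_zero (NeZero.ne h)
  have hhR : (1 : ℝ) ≤ (h : ℝ) := by exact_mod_cast hh1
  have hhne : ((h : ℕ) : ZMod (2 * h)) ≠ 0 := by
    intro h0
    rw [ZMod.natCast_eq_zero_iff] at h0
    have h1 := Nat.le_of_dvd hh1 h0
    omega
  have hval : ∀ w ∈ univ.filter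
      (fun w : Fin 2 → ZMod (2 * h) => w 1 = w 0 + (h : ZMod (2 * h))),
      unifInj h 2 w = 1 / ((2 * (h : ℝ)) * (2 * (h : ℝ) - 1)) := by
    intro w hw
    rw [mem_filter] at hw
    have hne : w 0 ≠ w 1 := by
      intro h01
      apply hhne
      have h2 := hw.2
      rw [← h01] at h2
      exact left_eq_add.mp h2
    rw [defs_aux_unifInj, if_pos (inj_of_ne w hne)]
    have e : (2 * h).descFactorial 2 = (2 * h - 1) * (2 * h) := by
      rw [Nat.descFactorial_succ, Nat.descFactorial_one]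
    rw [e, Nat.cast_mul, Nat.cast_sub (by omega : 1 ≤ 2 * h)]
    push_cast
    ring
  rw [Finset.sum_congr rfl hval, Finset.sum_const, pt_card h, nsmul_eq_mul]
  have h2 : (2 * (h : ℝ)) ≠ 0 := by positivity
  have h3 : (2 * (h : ℝ)) - 1 ≠ 0 := by
    have : (0 : ℝ) < 2 * (h : ℝ) - 1 := by linarith
    exact this.ne'
  push_cast
  field_simp

theorem pp_mix (h j : ℕ) [NeZero h] (u : Fin (j + 2) → ZMod (2 * h)) (hu : u 0 ≠ u 1)
    (s : ℕ) (hs : 6 * Nat.clog 2 (2 * h) ≤ s) :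
    |∑ y ∈ univ.filter (fun y : Fin (j + 2) → ZMod (2 * h) => y 1 = y 0 + (h : ZMod (2 * h))),
      (Kmat h (j + 2) ^ s) u y - 1 / ((2 * h : ℝ) - 1)|
      ≤ 2592 * (Nat.clog 2 (2 * h) : ℝ) ^ 2 / (2 * h : ℝ) ^ 2 := by
  classical
  rw [pp_lump]
  have hxinj : Function.Injective (![u 0, u 1] : Fin 2 → ZMod (2 * h)) := inj_of_ne _ hu
  have hT : 3 * 2 * Nat.clog 2 (2 * h) ≤ s := by omega
  have hk := H63R.kcard_r_all h 2 2 (by norm_num) ![u 0, u 1] hxinj s hT
  have e : ∑ y, |trackedLaw h 2 s ![u 0, u 1] y - unifInj h 2 y|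
      = ∑ y, |(Kmat h 2 ^ s) ![u 0, u 1] y - unifInj h 2 y| :=
    Finset.sum_congr rfl (fun y _ => by rw [H6.law_eq_pow h 2 s ![u 0, u 1] y])
  rw [e] at hk
  have hk' : (1 / 2 : ℝ) * ∑ y, |(Kmat h 2 ^ s) ![u 0, u 1] y - unifInj h 2 y|
      ≤ 1296 * (Nat.clog 2 (2 * h) : ℝ) ^ 2 / (2 * h : ℝ) ^ 2 := by
    refine hk.trans (le_of_eq ?_)
    push_cast
    ring
  have hsum : ∑ y, |(Kmat h 2 ^ s) ![u 0, u 1] y - unifInj h 2 y|
      ≤ 2592 * (Nat.clog 2 (2 * h) : ℝ) ^ 2 / (2 * h : ℝ) ^ 2 := by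
    have e2 : 2592 * (Nat.clog 2 (2 * h) : ℝ) ^ 2 / (2 * h : ℝ) ^ 2
        = 2 * (1296 * (Nat.clog 2 (2 * h) : ℝ) ^ 2 / (2 * h : ℝ) ^ 2) := by ring
    rw [e2]
    linarith
  calc |∑ w ∈ univ.filter (fun w : Fin 2 → ZMod (2 * h) => w 1 = w 0 + (h : ZMod (2 * h))),
          (Kmat h 2 ^ s) ![u 0, u 1] w - 1 / ((2 * h : ℝ) - 1)|
      = |∑ w ∈ univ.filter (fun w : Fin 2 → ZMod (2 * h) => w 1 = w 0 + (h : ZMod (2 * h))),
          ((Kmat h 2 ^ s) ![u 0, u 1] w - unifInj h 2 w)| := by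
        rw [Finset.sum_sub_distrib, pt_unif h]
    _ ≤ ∑ w ∈ univ.filter (fun w : Fin 2 → ZMod (2 * h) => w 1 = w 0 + (h : ZMod (2 * h))),
          |(Kmat h 2 ^ s) ![u 0, u 1] w - unifInj h 2 w| := Finset.abs_sum_le_sum_abs _ _
    _ ≤ ∑ w, |(Kmat h 2 ^ s) ![u 0, u 1] w - unifInj h 2 w| :=
        Finset.sum_le_univ_sum_of_nonneg (fun w => abs_nonneg _)
    _ ≤ 2592 * (Nat.clog 2 (2 * h) : ℝ) ^ 2 / (2 * h : ℝ) ^ 2 := hsum

end Vale.Agent.Lib.P162.H33CV
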